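import Vale.Agent.P060.H392.A

/-!
# P060 / H392: clique minors from cliques and connected matchings; changing a graph near few vertices
-/

set_option autoImplicit false

open scoped Classical

noncomputable section

namespace Vale.Agent.P060.HW

variable {n : ℕ}

/-- Structure of a large clique minor: a large clique or a large connected matching. -/
lemma minor_struct (G : SimpleGraph (Fin n)) {t p m : ℕ} (ht : n + m + 2 * p ≤ 3 * t)
    (hB : HasCliqueMinor G t) : p ≤ G.cliqueNum ∨ CM G m := by
  obtain ⟨B, h1, h2⟩ := hB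
  set F : Fin t → Finset (Fin n) := fun i => (B i).toFinset with hF
  have hFB : ∀ i x, x ∈ F i ↔ x ∈ B i := fun i x => by simp [hF]
  have hpos : ∀ i, 1 ≤ (F i).card := by
    intro i
    obtain ⟨x, hx⟩ := (h1 i).1
    exact Finset.card_pos.2 ⟨x, (hFB i x).2 hx⟩
  have hdisj : ∀ i j, i ≠ j → Disjoint (F i) (F j) := by
    intro i j hij
    rw [Finset.disjoint_left]
    intro x hx hx'
    exact Set.disjoint_left.1 (h2 i j hij).1 ((hFB i x).1 hx) ((hFB j x).1 hx')
  set S1 := Finset.univ.filter (fun i => (F i).card = 1) with hS1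
  set S2 := Finset.univ.filter (fun i => (F i).card = 2) with hS2
  have hsum : ∑ i, (F i).card ≤ n := by
    rw [← Finset.card_biUnion (fun i _ j _ hij => hdisj i j hij)]
    refine (Finset.card_le_univ _).trans ?_
    simp
  have hcount : 3 * t ≤ ∑ i, (F i).card + 2 * S1.card + S2.card := by
    have e1 : S1.card = ∑ i, if (F i).card = 1 then 1 else 0 := by
      rw [hS1, Finset.card_filter]
    have e2 : S2.card = ∑ i, if (F i).card = 2 then 1 else 0 := by
      rw [hS2, Finset.card_filter]
    have e3 : 3 * t = ∑ _i : Fin t, 3 := by simp [mul_comm]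
    rw [e1, e2, e3, Finset.mul_sum, ← Finset.sum_add_distrib, ← Finset.sum_add_distrib]
    refine Finset.sum_le_sum fun i _ => ?_
    have := hpos i
    split_ifs <;> omega
  by_cases hp : p ≤ S1.card
  · left
    have hne : ∀ i, ∃ x, x ∈ F i := fun i => Finset.card_pos.1 (hpos i)
    choose x hxF using hne
    have hx : ∀ i ∈ S1, F i = {x i} := by
      intro i hi
      obtain ⟨y, hy⟩ := Finset.card_eq_one.1 (Finset.mem_filter.1 hi).2
      have h3 := hxF i
      rw [hy, Finset.mem_singleton] at h3
      rw [hy, h3]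
    have hxm : ∀ i ∈ S1, x i ∈ F i := fun i _ => hxF i
    have hinj : ∀ i ∈ S1, ∀ j ∈ S1, x i = x j → i = j := by
      intro i hi j hj hij
      by_contra hne
      have h3 := Finset.disjoint_left.1 (hdisj i j hne) (hxm i hi)
      rw [hij] at h3
      exact h3 (hxm j hj)
    have hcl : G.IsClique ((S1.image x : Finset (Fin n)) : Set (Fin n)) := by
      intro a ha b hb hab
      rw [Finset.mem_coe, Finset.mem_image] at ha hb
      obtain ⟨i, hi, rfl⟩ := ha
      obtain ⟨j, hj, rfl⟩ := hb
      obtain ⟨a, ha, b, hb, hadj⟩ := (h2 i j (fun h => hab (by rw [h]))).2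
      have ea : a = x i := by
        have := (hFB _ _).2 ha
        rw [hx i hi] at this
        simpa using this
      have eb : b = x j := by
        have := (hFB _ _).2 hb
        rw [hx j hj] at this
        simpa using this
      rwa [ea, eb] at hadj
    have h4 := hcl.card_le_cliqueNum
    rw [Finset.card_image_of_injOn hinj] at h4
    exact hp.trans h4
  · right
    have hm : m ≤ S2.card := by omega
    have hemb : ∃ f : Fin m → Fin t, Function.Injective f ∧ ∀ i, f i ∈ S2 := by
      obtain ⟨T, hT, hTc⟩ := Finset.exists_subset_card_eq hm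
      refine ⟨fun i => (T.equivFinOfCardEq hTc).symm i, ?_, ?_⟩
      · intro i j hij
        exact (T.equivFinOfCardEq hTc).symm.injective (Subtype.ext hij)
      · intro i
        exact hT ((T.equivFinOfCardEq hTc).symm i).2
    obtain ⟨f, hf, hfS⟩ := hemb
    have hx : ∀ i, ∃ x y, x ≠ y ∧ F (f i) = {x, y} := fun i =>
      Finset.card_eq_two.1 (Finset.mem_filter.1 (hfS i)).2
    choose x y hxy hx using hx
    have hxm : ∀ i, x i ∈ F (f i) := fun i => by rw [hx]; simp
    have hym : ∀ i, y i ∈ F (f i) := fun i => by rw [hx]; simp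
    set e : Fin m → Fin 2 → Fin n := fun i k => if k = 0 then x i else y i with he
    have hem : ∀ i k, e i k ∈ F (f i) := by
      intro i k
      simp only [he]
      split_ifs
      · exact hxm i
      · exact hym i
    have hall : ∀ i, ∀ z ∈ B (f i), ∃ k, z = e i k := by
      intro i z hz
      have := (hFB _ _).2 hz
      rw [hx, Finset.mem_insert, Finset.mem_singleton] at this
      rcases this with h | h
      · exact ⟨0, by simp [he, h]⟩
      · exact ⟨1, by simp [he, h]⟩
    refine ⟨e, ?_, ?_, ?_⟩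
    · intro i k i' k' h
      have hi : i = i' := by
        by_contra hne
        have := Finset.disjoint_left.1 (hdisj (f i) (f i') (fun h' => hne (hf h'))) (hem i k)
        exact this (h ▸ hem i' k')
      subst hi
      refine ⟨rfl, ?_⟩
      fin_cases k <;> fin_cases k' <;> simp [he] at h ⊢
      · exact hxy i h
      · exact hxy i h.symm
    · intro i
      have := adj_of_connected_pair G (hxy i) ((hFB _ _).1 (hxm i))
        ((hFB _ _).1 (hym i)) (by
          intro z hz
          have := (hFB _ _).2 hz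
          rw [hx, Finset.mem_insert, Finset.mem_singleton] at this
          exact this) (h1 (f i)).2
      simpa [he] using this
    · intro i j hij
      obtain ⟨a, ha, b, hb, hab⟩ := (h2 (f i) (f j) (fun h' => hij (hf h'))).2
      obtain ⟨k, rfl⟩ := hall i a ha
      obtain ⟨l, rfl⟩ := hall j b hb
      exact ⟨k, l, hab⟩

/-- A disjoint family of sets has at most `|S|` members which meet `S`. -/
lemma card_meet_le {ι : Type*} [Fintype ι] (S : Finset (Fin n)) (B : ι → Set (Fin n))
    [DecidablePred (fun i => ∃ x ∈ B i, x ∈ S)]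
    (hd : ∀ i j, i ≠ j → Disjoint (B i) (B j)) :
    (Finset.univ.filter (fun i => ∃ x ∈ B i, x ∈ S)).card ≤ S.card := by
  have hx : ∀ i ∈ Finset.univ.filter (fun i => ∃ x ∈ B i, x ∈ S), ∃ x, x ∈ B i ∧ x ∈ S := by
    intro i hi
    obtain ⟨x, h1, h2⟩ := (Finset.mem_filter.1 hi).2
    exact ⟨x, h1, h2⟩
  rcases isEmpty_or_nonempty (Fin n) with hn | hn
  · have : Finset.univ.filter (fun i => ∃ x ∈ B i, x ∈ S) = ∅ := by
      apply Finset.filter_eq_empty_iff.2
      rintro i _ ⟨x, _⟩
      exact hn.elim x
    rw [this]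
    simp
  choose! x hx1 hx2 using hx
  refine Finset.card_le_card_of_injOn x (fun i hi => hx2 i hi) ?_
  intro i hi j hj hij
  by_contra hne
  have h1 := hx1 i hi
  rw [hij] at h1
  exact Set.disjoint_left.1 (hd i j hne) h1 (hx1 j hj)

/-- an injection into a large filter -/
lemma exists_inj {ι : Type*} [Fintype ι] (P : ι → Prop) [DecidablePred P] {r s : ℕ}
    (h : (Finset.univ.filter P).card ≤ s) (hr : r + s ≤ Fintype.card ι) :
    ∃ f : Fin r → ι, Function.Injective f ∧ ∀ i, ¬ P (f i) := by
  have h1 := Finset.card_filter_add_card_filter_not (s := (Finset.univ : Finset ι)) P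
  have h2 : r ≤ (Finset.univ.filter (fun i => ¬ P i)).card := by
    rw [Finset.card_univ] at h1
    omega
  obtain ⟨T, hT, hTc⟩ := Finset.exists_subset_card_eq h2
  refine ⟨fun i => (T.equivFinOfCardEq hTc).symm i, ?_, ?_⟩
  · intro i j hij
    exact (T.equivFinOfCardEq hTc).symm.injective (Subtype.ext hij)
  · intro i
    exact (Finset.mem_filter.1 (hT ((T.equivFinOfCardEq hTc).symm i).2)).2

/-- Changing the edges at the vertices of `S` changes the Hadwiger number by at most `|S|`. -/
lemma hadwiger_change {G G' : SimpleGraph (Fin n)} (S : Finset (Fin n))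
    (h : ∀ x y, x ∉ S → y ∉ S → G'.Adj x y → G.Adj x y) :
    hadwigerNumber G' ≤ hadwigerNumber G + S.card := by
  by_contra hcon
  push Not at hcon
  obtain ⟨B, h1, h2⟩ := minor_hadwiger G'
  obtain ⟨f, hf, hfS⟩ := exists_inj (r := hadwigerNumber G + 1) (s := S.card)
    (fun i => ∃ x ∈ B i, x ∈ S)
    (card_meet_le S B (fun i j hij => (h2 i j hij).1)) (by rw [Fintype.card_fin]; omega)
  have hS : ∀ i, ∀ x ∈ B (f i), x ∉ S := fun i x hx hxS => hfS i ⟨x, hx, hxS⟩
  have hm : HasCliqueMinor G (hadwigerNumber G + 1) := by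
    refine ⟨fun i => B (f i), fun i => ⟨(h1 (f i)).1, ?_⟩, fun i j hij => ?_⟩
    · refine (h1 (f i)).2.mono ?_
      intro a b hab
      exact h _ _ (hS i _ a.2) (hS i _ b.2) hab
    · obtain ⟨h3, x, hx, y, hy, hxy⟩ := h2 (f i) (f j) (fun h' => hij (hf h'))
      exact ⟨h3, x, hx, y, hy, h _ _ (hS i _ hx) (hS j _ hy) hxy⟩
  have h3 : hadwigerNumber G + 1 ≤ hadwigerNumber G :=
    le_csSup ⟨n, fun t ht => minor_le_card G ht⟩ hm
  omega

/-- Changing the edges at the vertices of `S` destroys at most `|S|` edges of a connected matching. -/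
lemma cm_change {G G' : SimpleGraph (Fin n)} (S : Finset (Fin n))
    (h : ∀ x y, x ∉ S → y ∉ S → G'.Adj x y → G.Adj x y) {m : ℕ} (hm : CM G' (m + S.card)) :
    CM G m := by
  obtain ⟨e, h1, h2, h3⟩ := hm
  obtain ⟨f, hf, hfS⟩ := exists_inj (r := m) (s := S.card)
    (fun i => ∃ x ∈ Set.range (e i), x ∈ S)
    (card_meet_le S (fun i : Fin (m + S.card) => Set.range (e i)) (fun i j hij => by
      rw [Set.disjoint_left]
      rintro _ ⟨k, rfl⟩ ⟨l, hl⟩
      exact hij (h1 _ _ _ _ hl).1.symm)) (by rw [Fintype.card_fin])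
  have hS : ∀ i k, e (f i) k ∉ S := fun i k hk => hfS i ⟨e (f i) k, ⟨k, rfl⟩, hk⟩
  refine ⟨fun i => e (f i), ?_, ?_, ?_⟩
  · intro i k i' k' hh
    obtain ⟨h4, h5⟩ := h1 _ _ _ _ hh
    exact ⟨hf h4, h5⟩
  · intro i
    exact h _ _ (hS i 0) (hS i 1) (h2 (f i))
  · intro i j hij
    obtain ⟨k, l, hkl⟩ := h3 (f i) (f j) (fun h' => hij (hf h'))
    exact ⟨k, l, h _ _ (hS i k) (hS j l) hkl⟩

lemma cm_mono {G : SimpleGraph (Fin n)} {m m' : ℕ} (hm : m ≤ m') (h : CM G m') : CM G m := by
  obtain ⟨e, h1, h2, h3⟩ := h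
  refine ⟨fun i => e (Fin.castLE hm i), ?_, fun i => h2 _, ?_⟩
  · intro i k i' k' hh
    obtain ⟨h4, h5⟩ := h1 _ _ _ _ hh
    exact ⟨Fin.castLE_injective hm h4, h5⟩
  · intro i j hij
    exact h3 _ _ (fun h' => hij (Fin.castLE_injective hm h'))

/-- The graph `G` with all vertices of `S` made adjacent to all vertices. -/
def domG (G : SimpleGraph (Fin n)) (S : Finset (Fin n)) : SimpleGraph (Fin n) where
  Adj x y := x ≠ y ∧ (x ∈ S ∨ y ∈ S ∨ G.Adj x y)
  symm := ⟨fun _ _ h => ⟨h.1.symm, by
    rcases h.2 with h' | h' | h'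
    · exact Or.inr (Or.inl h')
    · exact Or.inl h'
    · exact Or.inr (Or.inr h'.symm)⟩⟩
  loopless := ⟨fun _ h => h.1 rfl⟩

lemma le_domG (G : SimpleGraph (Fin n)) (S : Finset (Fin n)) : G ≤ domG G S := by
  intro x y h
  exact ⟨h.ne, Or.inr (Or.inr h)⟩

lemma domG_off {G : SimpleGraph (Fin n)} {S : Finset (Fin n)} {x y : Fin n} (hx : x ∉ S)
    (hy : y ∉ S) (h : (domG G S).Adj x y) : G.Adj x y := by
  rcases h.2 with h' | h' | h'
  · exact absurd h' hx
  · exact absurd h' hy
  · exact h'

/-- adding edges does not increase the independence number -/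
lemma indepNum_anti {G G' : SimpleGraph (Fin n)} (h : G ≤ G') : G'.indepNum ≤ G.indepNum := by
  obtain ⟨s, hs⟩ := G'.exists_isNIndepSet_indepNum
  rw [← hs.card_eq]
  refine SimpleGraph.IsIndepSet.card_le_indepNum (G := G) ?_
  intro a ha b hb hab hadj
  exact hs.isIndepSet ha hb hab (h hadj)

lemma domG_empty (G : SimpleGraph (Fin n)) : domG G ∅ = G := by
  ext x y
  constructor
  · exact fun h => domG_off (by simp) (by simp) h
  · exact fun h => le_domG G _ h

/-- the vertices of `S` are a clique -/
lemma card_le_domG (G : SimpleGraph (Fin n)) (S : Finset (Fin n)) :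
    S.card ≤ (domG G S).cliqueNum := by
  have h : (domG G S).IsClique (S : Set (Fin n)) := by
    intro x hx y _ hxy
    exact ⟨hxy, Or.inl hx⟩
  exact h.card_le_cliqueNum

/-- one more dominating vertex increases the clique number by at most one -/
lemma domG_insert (G : SimpleGraph (Fin n)) (S : Finset (Fin n)) (v : Fin n) :
    (domG G (insert v S)).cliqueNum ≤ (domG G S).cliqueNum + 1 := by
  obtain ⟨K, hK⟩ := (domG G (insert v S)).exists_isNClique_cliqueNum
  have h1 : (domG G S).IsClique ((K.erase v : Finset (Fin n)) : Set (Fin n)) := by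
    intro x hx y hy hxy
    rw [Finset.mem_coe, Finset.mem_erase] at hx hy
    have h2 := hK.isClique hx.2 hy.2 hxy
    refine ⟨hxy, ?_⟩
    rcases h2.2 with h' | h' | h'
    · rcases Finset.mem_insert.1 h' with h'' | h''
      · exact absurd h'' hx.1
      · exact Or.inl h''
    · rcases Finset.mem_insert.1 h' with h'' | h''
      · exact absurd h'' hy.1
      · exact Or.inr (Or.inl h'')
    · exact Or.inr (Or.inr h')
  have h2 := h1.card_le_cliqueNum
  have h3 := Finset.pred_card_le_card_erase (s := K) (a := v)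
  rw [hK.card_eq] at h3
  omega

/-- The first `j` vertices. -/
def firstV (n j : ℕ) : Finset (Fin n) := Finset.univ.filter (fun i => i.val < j)

lemma card_firstV {j : ℕ} (hj : j ≤ n) : (firstV n j).card = j := by
  have := Fin.card_filter_val_lt (n := n) (m := j)
  unfold firstV
  rw [this]
  exact min_eq_right hj

/-- **Prescribed clique number.** Every value between the clique number and `n` is attained by making the first few
vertices dominating. -/
lemma exists_domG (G : SimpleGraph (Fin n)) {w : ℕ} (h1 : G.cliqueNum ≤ w) (h2 : w ≤ n) :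
    ∃ j, j ≤ w ∧ (domG G (firstV n j)).cliqueNum = w := by
  have hex : ∃ j, j ≤ n ∧ w ≤ (domG G (firstV n j)).cliqueNum := by
    refine ⟨w, h2, ?_⟩
    have := card_le_domG G (firstV n w)
    rwa [card_firstV h2] at this
  obtain ⟨hj1, hj2⟩ := Nat.find_spec hex
  have hmin := fun m hm => Nat.find_min hex (m := m) hm
  have hjw : Nat.find hex ≤ w := by
    refine Nat.find_le ?_
    refine ⟨h2, ?_⟩
    have := card_le_domG G (firstV n w)
    rwa [card_firstV h2] at this
  generalize Nat.find hex = j at hj1 hj2 hmin hjw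
  refine ⟨j, hjw, le_antisymm ?_ hj2⟩
  rcases Nat.eq_zero_or_pos j with h0 | h0
  · rw [h0]
    have : firstV n 0 = ∅ := by simp [firstV]
    rw [this, domG_empty]
    exact h1
  · have h3 := hmin (j - 1) (by omega)
    have h4 : (domG G (firstV n (j - 1))).cliqueNum < w := by
      by_contra h5
      exact h3 ⟨by omega, not_lt.1 h5⟩
    have h5 : firstV n j = insert (⟨j - 1, by omega⟩ : Fin n) (firstV n (j - 1)) := by
      ext i
      simp only [firstV, Finset.mem_filter, Finset.mem_univ, true_and, Finset.mem_insert, Fin.ext_iff]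
      omega
    have h6 := domG_insert G (firstV n (j - 1)) ⟨j - 1, by omega⟩
    rw [← h5] at h6
    omega

end Vale.Agent.P060.HW
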