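import Mathlib

namespace Vale.Agent.P060

/-- `G` has a connected matching with `m` edges: the edges `x i y i` of `G` are pairwise disjoint, and any two of them are
joined by an edge of `G`. -/
def HasConnectedMatching {V : Type*} (G : SimpleGraph V) (m : ℕ) : Prop :=
  ∃ x y : Fin m → V, (∀ i, G.Adj (x i) (y i)) ∧
    ∀ i j, i ≠ j → x i ≠ x j ∧ x i ≠ y j ∧ y i ≠ y j ∧
      (G.Adj (x i) (x j) ∨ G.Adj (x i) (y j) ∨ G.Adj (y i) (x j) ∨ G.Adj (y i) (y j))

end Vale.Agent.P060
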