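import Vale.Agent.P060.H392.B
import Vale.Agent.P060.H392.Defs

/-!
# P060 / H392: a prescribed induced subgraph, and the final theorem
-/

set_option autoImplicit false

open scoped Classical

noncomputable section

namespace Vale.Agent.P060.HW

variable {n s : ℕ}

lemma cm_of_has {G : SimpleGraph (Fin n)} {m : ℕ} (h : HasConnectedMatching G m) : CM G m := by
  obtain ⟨x, y, h1, h2⟩ := h
  refine ⟨fun i k => if k = 0 then x i else y i, ?_, ?_, ?_⟩
  · intro i k i' k' hh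
    by_cases hi : i = i'
    · subst hi
      refine ⟨rfl, ?_⟩
      fin_cases k <;> fin_cases k' <;> simp at hh ⊢
      · exact (h1 i).ne hh
      · exact (h1 i).ne hh.symm
    · exfalso
      obtain ⟨a1, a2, a3, -⟩ := h2 i i' hi
      obtain ⟨-, b2, -, -⟩ := h2 i' i (Ne.symm hi)
      fin_cases k <;> fin_cases k' <;> simp at hh
      · exact a1 hh
      · exact a2 hh
      · exact b2 hh.symm
      · exact a3 hh
  · intro i
    simpa using h1 i
  · intro i j hij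
    obtain ⟨-, -, -, a | a | a | a⟩ := h2 i j hij
    · exact ⟨0, 0, by simpa using a⟩
    · exact ⟨0, 1, by simpa using a⟩
    · exact ⟨1, 0, by simpa using a⟩
    · exact ⟨1, 1, by simpa using a⟩

/-- The graph `G` with the induced graph on the image of `g` replaced by `H`, joined completely to the other vertices. -/
def embG (G : SimpleGraph (Fin n)) (H : SimpleGraph (Fin s)) (g : Fin s ↪ Fin n) :
    SimpleGraph (Fin n) where
  Adj x y := x ≠ y ∧ ((x ∉ Set.range g ∧ y ∉ Set.range g ∧ G.Adj x y) ∨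
    (x ∈ Set.range g ∧ y ∉ Set.range g) ∨ (x ∉ Set.range g ∧ y ∈ Set.range g) ∨
    ∃ a b, g a = x ∧ g b = y ∧ H.Adj a b)
  symm := ⟨fun x y h => by
    refine ⟨h.1.symm, ?_⟩
    rcases h.2 with ⟨h1, h2, h3⟩ | ⟨h1, h2⟩ | ⟨h1, h2⟩ | ⟨a, b, h1, h2, h3⟩
    · exact Or.inl ⟨h2, h1, h3.symm⟩
    · exact Or.inr (Or.inr (Or.inl ⟨h2, h1⟩))
    · exact Or.inr (Or.inl ⟨h2, h1⟩)
    · exact Or.inr (Or.inr (Or.inr ⟨b, a, h2, h1, h3.symm⟩))⟩
  loopless := ⟨fun _ h => h.1 rfl⟩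

lemma embG_adj (G : SimpleGraph (Fin n)) (H : SimpleGraph (Fin s)) (g : Fin s ↪ Fin n) (a b : Fin s) :
    (embG G H g).Adj (g a) (g b) ↔ H.Adj a b := by
  constructor
  · rintro ⟨-, ⟨h1, -⟩ | ⟨-, h1⟩ | ⟨h1, -⟩ | ⟨a', b', h1, h2, h3⟩⟩
    · exact absurd ⟨a, rfl⟩ h1
    · exact absurd ⟨b, rfl⟩ h1
    · exact absurd ⟨a, rfl⟩ h1
    · rwa [g.injective h1, g.injective h2] at h3
  · intro h
    exact ⟨fun h' => h.ne (g.injective h'), Or.inr (Or.inr (Or.inr ⟨a, b, rfl, rfl, h⟩))⟩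

lemma embG_off {G : SimpleGraph (Fin n)} {H : SimpleGraph (Fin s)} {g : Fin s ↪ Fin n} {x y : Fin n}
    (hx : x ∉ Set.range g) (hy : y ∉ Set.range g) : (embG G H g).Adj x y ↔ G.Adj x y := by
  constructor
  · rintro ⟨-, ⟨-, -, h1⟩ | ⟨h1, -⟩ | ⟨-, h1⟩ | ⟨a', b', h1, h2, h3⟩⟩
    · exact h1
    · exact absurd h1 hx
    · exact absurd h1 hy
    · exact absurd ⟨a', h1⟩ hx
  · intro h
    exact ⟨h.ne, Or.inl ⟨hx, hy, h⟩⟩

/-- the part of a finset in the image of `g`, and its size -/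
lemma card_preimage (g : Fin s ↪ Fin n) (K : Finset (Fin n)) :
    (Finset.univ.filter (fun a => g a ∈ K)).card = (K.filter (fun x => x ∈ Set.range g)).card := by
  rw [← Finset.card_map g]
  congr 1
  ext x
  simp only [Finset.mem_map, Finset.mem_filter, Finset.mem_univ, true_and, Set.mem_range]
  constructor
  · rintro ⟨a, h, rfl⟩
    exact ⟨h, a, rfl⟩
  · rintro ⟨h, a, rfl⟩
    exact ⟨a, h, rfl⟩

lemma embG_cliqueNum (G : SimpleGraph (Fin n)) (H : SimpleGraph (Fin s)) (g : Fin s ↪ Fin n) :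
    (embG G H g).cliqueNum ≤ G.cliqueNum + H.cliqueNum := by
  obtain ⟨K, hK⟩ := (embG G H g).exists_isNClique_cliqueNum
  have h1 : G.IsClique ((K.filter (fun x => x ∉ Set.range g) : Finset (Fin n)) : Set (Fin n)) := by
    intro x hx y hy hxy
    rw [Finset.mem_coe, Finset.mem_filter] at hx hy
    exact (embG_off hx.2 hy.2).1 (hK.isClique hx.1 hy.1 hxy)
  have h2 : H.IsClique ((Finset.univ.filter (fun a => g a ∈ K) : Finset (Fin s)) : Set (Fin s)) := by
    intro a ha b hb hab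
    rw [Finset.mem_coe, Finset.mem_filter] at ha hb
    exact (embG_adj G H g a b).1 (hK.isClique ha.2 hb.2 (fun h => hab (g.injective h)))
  have h3 := h1.card_le_cliqueNum
  have h4 := h2.card_le_cliqueNum
  have h5 := card_preimage g K
  have h6 := Finset.card_filter_add_card_filter_not (s := K) (fun x => x ∈ Set.range g)
  rw [hK.card_eq] at h6
  omega

lemma embG_indepNum {G : SimpleGraph (Fin n)} {H : SimpleGraph (Fin s)} (g : Fin s ↪ Fin n)
    (hG : G.indepNum ≤ 2) (hH : H.indepNum ≤ 2) : (embG G H g).indepNum ≤ 2 := by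
  obtain ⟨K, hK⟩ := (embG G H g).exists_isNIndepSet_indepNum
  rw [← hK.card_eq]
  have h6 := Finset.card_filter_add_card_filter_not (s := K) (fun x => x ∈ Set.range g)
  by_cases hA : (K.filter (fun x => x ∈ Set.range g)) = ∅
  · have h1 : G.IsIndepSet ((K.filter (fun x => x ∉ Set.range g) : Finset (Fin n)) : Set (Fin n)) := by
      intro x hx y hy hxy
      rw [Finset.mem_coe, Finset.mem_filter] at hx hy
      exact fun h => hK.isIndepSet hx.1 hy.1 hxy ((embG_off hx.2 hy.2).2 h)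
    have h3 := SimpleGraph.IsIndepSet.card_le_indepNum (G := G) h1
    rw [hA, Finset.card_empty] at h6
    omega
  · by_cases hB : (K.filter (fun x => x ∉ Set.range g)) = ∅
    · have h2 : H.IsIndepSet ((Finset.univ.filter (fun a => g a ∈ K) : Finset (Fin s)) : Set (Fin s)) := by
        intro a ha b hb hab
        rw [Finset.mem_coe, Finset.mem_filter] at ha hb
        exact fun h => hK.isIndepSet ha.2 hb.2 (fun h => hab (g.injective h))
          ((embG_adj G H g a b).2 h)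
      have h3 := SimpleGraph.IsIndepSet.card_le_indepNum (G := H) h2
      have h5 := card_preimage g K
      rw [hB, Finset.card_empty] at h6
      omega
    · exfalso
      obtain ⟨x, hx⟩ := Finset.nonempty_iff_ne_empty.2 hA
      obtain ⟨y, hy⟩ := Finset.nonempty_iff_ne_empty.2 hB
      rw [Finset.mem_filter] at hx hy
      have hxy : x ≠ y := by
        rintro rfl
        exact hy.2 hx.2
      exact hK.isIndepSet hx.1 hy.1 hxy ⟨hxy, Or.inr (Or.inl ⟨hx.2, hy.2⟩)⟩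

/-- the numerical form of `gap2` -/
theorem gap3 {δ₁ : ℝ} (hδ₁ : 0 < δ₁) : ∃ n0 : ℕ, ∀ n : ℕ, n0 ≤ n → ∃ G : SimpleGraph (Fin n),
    G.indepNum ≤ 2 ∧ (G.cliqueNum : ℝ) < δ₁ * n ∧
    (hadwigerNumber G : ℝ) < (1 / 2 - 43 / 10 ^ 14) * n ∧
    ∀ m : ℕ, CM G m → (m : ℝ) < (1 / 2 - 13 / 10 ^ 13) * n := by
  set δ₂ : ℝ := min δ₁ (1 / 10 ^ 15) with hδ₂
  have hδ₂0 : 0 < δ₂ := lt_min hδ₁ (by norm_num)
  have hδ₂1 : δ₂ ≤ δ₁ := min_le_left _ _
  have hδ₂2 : δ₂ ≤ 1 / 10 ^ 15 := min_le_right _ _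
  obtain ⟨n0, hn0⟩ := gap2 hδ₂0
  refine ⟨max n0 (10 ^ 16), fun n hn => ?_⟩
  obtain ⟨G, h1, h2, h3⟩ := hn0 n ((le_max_left _ _).trans hn)
  have hn1 : (10 : ℝ) ^ 16 ≤ n := by exact_mod_cast (le_max_right _ _).trans hn
  have hn2 : (0 : ℝ) < n := lt_of_lt_of_le (by norm_num) hn1
  set m₀ : ℕ := n / 2 - 2 * ⌈dlt (min (1 / 2000) 1 / 40) * n⌉₊ with hm₀
  have hm : (m₀ : ℝ) ≤ (1 / 2 - 13 / 10 ^ 13) * n := by
    have e1 : (65 : ℝ) / 10 ^ 14 * n ≤ ⌈dlt (min (1 / 2000) 1 / 40) * n⌉₊ :=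
      (mul_le_mul_of_nonneg_right dlt_num2 hn2.le).trans (Nat.le_ceil _)
    rcases le_total (2 * ⌈dlt (min (1 / 2000) 1 / 40) * n⌉₊) (n / 2) with h | h
    · have e2 : m₀ + 2 * ⌈dlt (min (1 / 2000) 1 / 40) * n⌉₊ = n / 2 := by omega
      have e3 : 2 * (n / 2) ≤ n := by omega
      have e4 : (m₀ : ℝ) + 2 * (⌈dlt (min (1 / 2000) 1 / 40) * n⌉₊ : ℝ) = ((n / 2 : ℕ) : ℝ) := by
        exact_mod_cast e2
      have e5 : 2 * ((n / 2 : ℕ) : ℝ) ≤ n := by exact_mod_cast e3
      linarith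
    · have e2 : m₀ = 0 := by omega
      rw [e2]
      push_cast
      nlinarith
  refine ⟨G, h1, h2.trans_le (mul_le_mul_of_nonneg_right hδ₂1 hn2.le), ?_, ?_⟩
  · have h4 : 3 * hadwigerNumber G < n + m₀ + 2 * ⌈δ₂ * n⌉₊ := by
      by_contra hcon
      push Not at hcon
      rcases minor_struct G hcon (minor_hadwiger G) with h | h
      · exact absurd (Nat.ceil_le.1 h) (not_le.2 h2)
      · exact h3 h
    have h5 : 3 * (hadwigerNumber G : ℝ) < n + m₀ + 2 * (⌈δ₂ * n⌉₊ : ℝ) := by exact_mod_cast h4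
    have h6 : (⌈δ₂ * n⌉₊ : ℝ) < δ₂ * n + 1 := Nat.ceil_lt_add_one (by positivity)
    have h7 : δ₂ * n ≤ 1 / 10 ^ 15 * n := mul_le_mul_of_nonneg_right hδ₂2 hn2.le
    linarith only [h5, h6, h7, hm, hn1, hn2]
  · intro m hcm
    by_contra hcon
    push Not at hcon
    have h4 : (m₀ : ℝ) ≤ m := hm.trans hcon
    exact h3 (cm_mono (by exact_mod_cast h4) hcm)

/-- **The final theorem.** -/
theorem main2 (δ : ℝ) (hδ : 0 < δ) : ∃ n₀ : ℕ, ∀ n : ℕ, n₀ ≤ n → ∀ (s w : ℕ) (H : SimpleGraph (Fin s)),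
    H.indepNum ≤ 2 → (H.cliqueNum : ℝ) + δ * n ≤ w → (s : ℝ) + w ≤ 3 / 10 ^ 13 * n →
    ∃ G : SimpleGraph (Fin n), G.indepNum ≤ 2 ∧ G.cliqueNum = w ∧ Nonempty (H ↪g G) ∧
      (hadwigerNumber G : ℝ) < (1 / 2 - 1 / 10 ^ 13) * n ∧
      (∀ m : ℕ, HasConnectedMatching G m → (m : ℝ) < (1 / 2 - 1 / 10 ^ 12) * n) ∧
      ∀ k : ℕ, G.Colorable k → (n : ℝ) / 2 ≤ k := by
  obtain ⟨n0, hn0⟩ := gap3 hδ
  refine ⟨n0 + 1, fun n hn s w H hH hw hsw => ?_⟩
  obtain ⟨G₀, g1, g2, g3, g4⟩ := hn0 n (by omega)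
  have hn1 : (0 : ℝ) < n := by
    have : 0 < n := by omega
    exact_mod_cast this
  have hswn : s + w ≤ n := by
    have : ((s + w : ℕ) : ℝ) ≤ n := by
      push_cast
      nlinarith
    exact_mod_cast this
  -- the embedding onto the last vertices
  set g : Fin s ↪ Fin n := ⟨fun a => ⟨n - s + a.val, by omega⟩, fun a b h => by
    have := congrArg Fin.val h
    simp only at this
    exact Fin.ext (by omega)⟩ with hg
  set G₁ := embG G₀ H g with hG₁
  have c1 : G₁.cliqueNum ≤ w := by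
    have h1 := embG_cliqueNum G₀ H g
    have h2 : (G₁.cliqueNum : ℝ) ≤ G₀.cliqueNum + H.cliqueNum := by exact_mod_cast h1
    have h3 : (G₁.cliqueNum : ℝ) ≤ w := by linarith
    exact_mod_cast h3
  obtain ⟨j, hj, hjw⟩ := exists_domG G₁ c1 (by omega)
  set G := domG G₁ (firstV n j) with hG
  set S : Finset (Fin n) := firstV n j ∪ Finset.univ.map g with hS
  have hSc : S.card ≤ s + w := by
    refine (Finset.card_union_le _ _).trans ?_
    rw [card_firstV (by omega), Finset.card_map, Finset.card_univ, Fintype.card_fin]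
    omega
  have hScR : (S.card : ℝ) ≤ 3 / 10 ^ 13 * n := by
    have : (S.card : ℝ) ≤ s + w := by exact_mod_cast hSc
    linarith
  have hoff : ∀ x y, x ∉ S → y ∉ S → G.Adj x y → G₀.Adj x y := by
    intro x y hx hy h
    rw [hS, Finset.mem_union, not_or] at hx hy
    have h1 := domG_off hx.1 hy.1 h
    refine (embG_off ?_ ?_).1 h1
    · rintro ⟨a, ha⟩
      exact hx.2 (Finset.mem_map.2 ⟨a, Finset.mem_univ _, ha⟩)
    · rintro ⟨a, ha⟩
      exact hy.2 (Finset.mem_map.2 ⟨a, Finset.mem_univ _, ha⟩)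
  have hind : G.indepNum ≤ 2 := (indepNum_anti (le_domG _ _)).trans (embG_indepNum g g1 hH)
  refine ⟨G, hind, hjw, ⟨⟨g, ?_⟩⟩, ?_, ?_, fun k hk => half_le_of_colorable hind hk⟩
  · intro a b
    have hout : ∀ a, g a ∉ firstV n j := by
      intro a ha
      have h5 : n - s + a.val < j := (Finset.mem_filter.1 ha).2
      omega
    rw [← embG_adj G₀ H g a b]
    constructor
    · intro h
      exact domG_off (hout a) (hout b) h
    · intro h
      exact le_domG _ _ h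
  · have h1 := hadwiger_change S hoff
    have h2 : (hadwigerNumber G : ℝ) ≤ hadwigerNumber G₀ + S.card := by exact_mod_cast h1
    linarith only [h2, g3, hScR, hn1]
  · intro m hm
    by_contra hcon
    push Not at hcon
    have h1 := cm_of_has hm
    obtain ⟨m', hm'⟩ : ∃ m', m = m' + S.card := by
      refine ⟨m - S.card, ?_⟩
      have : (S.card : ℝ) ≤ m := by
        linarith only [hcon, hScR, hn1]
      have : S.card ≤ m := by exact_mod_cast this
      omega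
    rw [hm'] at h1
    have h2 := g4 m' (cm_change S hoff h1)
    rw [hm'] at hcon
    push_cast at hcon
    linarith only [hcon, h2, hScR, hn1]

end Vale.Agent.P060.HW
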